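import Vale.Agent.Lib.P237.Mono
import Vale.Agent.Lib.P237.Shadow

/-!
# P237: Petty's inequality for Cartesian products and for bodies with a large inscribed product

(0) Check of the definition `hProj K u = |K + [0,u]| - |K|` of the support function of `Π K`.
(1) `R_{n+m}(K × L) = R_n(K) R_m(L)`; Petty's inequality is inherited by products, strictly in
dimension at least three.
(2) Every iterated product of intervals and planar convex bodies has `R_d ≥ 2^d`, which exceeds
`κ_{d-1}^d κ_d^{2-d}` for `d ≥ 3`.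
(3) `R_n(K) ≥ R_n(P) (|P|/|K|)^(n-1)` for convex bodies `P ⊆ K`; so `R_n(K) ≥ 2^n (|P|/|K|)^(n-1)` if
`P` is such a product; in `ℝ^3` Petty's inequality holds strictly for every convex body in which a
cylinder over a planar convex body fills at least 97 per cent of the volume.
-/

namespace Vale.Agent.Results.P237.AAAllResults

open MeasureTheory _root_.P237

theorem result :
    ((∀ (ι : Type) [Fintype ι] (A : (ι → ℝ) →ₗ[ℝ] (ι → ℝ)) (K : Set (ι → ℝ)) (u : ι → ℝ),
        hProj (A '' K) (A u) = |LinearMap.det A| * hProj K u) ∧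
     (∀ (ι : Type) [Fintype ι] (K : Set (ι ⊕ Fin 1 → ℝ)) (w : Fin 1 → ℝ),
        IsCompact K → Convex ℝ K → hProj K (Sum.elim 0 w) = |w 0| * vol (shadow K))) ∧
    (∀ (ι κ : Type) [Fintype ι] [Fintype κ] [Nonempty ι] [Nonempty κ]
      (K : Set (ι → ℝ)) (L : Set (κ → ℝ)),
      IsCompact K → Convex ℝ K → (interior K).Nonempty →
      IsCompact L → Convex ℝ L → (interior L).Nonempty →
        Rn (prod K L) = Rn K * Rn L ∧
        (petOf kapB (Fintype.card ι) ≤ Rn K → petOf kapB (Fintype.card κ) ≤ Rn L →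
          petOf kapB (Fintype.card (ι ⊕ κ)) ≤ Rn (prod K L) ∧
          (3 ≤ Fintype.card (ι ⊕ κ) → petOf kapB (Fintype.card (ι ⊕ κ)) < Rn (prod K L)))) ∧
    (∀ (ι : Type) [i : Fintype ι] (P : Set (ι → ℝ)), LowProd ι i P →
        (2 : ℝ) ^ Fintype.card ι ≤ Rn P ∧
        (3 ≤ Fintype.card ι → petOf kapB (Fintype.card ι) < Rn P) ∧
        ∀ K : Set (ι → ℝ), IsCompact K → Convex ℝ K → P ⊆ K →
          (2 : ℝ) ^ Fintype.card ι * (vol P / vol K) ^ (Fintype.card ι - 1) ≤ Rn K) ∧
    (∀ (ι : Type) [Fintype ι] (P K : Set (ι → ℝ)), IsCompact P → Convex ℝ P →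
        (interior P).Nonempty → IsCompact K → Convex ℝ K → P ⊆ K →
          Rn P * (vol P / vol K) ^ (Fintype.card ι - 1) ≤ Rn K) ∧
    (∀ (C : Set (Fin 2 → ℝ)) (a b : ℝ) (K : Set (Fin 2 ⊕ Fin 1 → ℝ)),
        IsCompact C → Convex ℝ C → (interior C).Nonempty → a < b →
        IsCompact K → Convex ℝ K → prod C (seg1 a b) ⊆ K →
        97 / 100 * vol K ≤ vol (prod C (seg1 a b)) → petOf kapB 3 < Rn K) := by
  refine ⟨⟨?_, ?_⟩, ?_, ?_, ?_, ?_⟩
  · intro ι _ A K u
    exact hProj_image A K u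
  · intro ι _ K w hK hc
    exact hProj_vertical hK hc w
  · intro ι κ _ _ _ _ K L hK hKc hKi hL hLc hLi
    have v1 := vol_pos_of_interior hK hKi
    have v2 := vol_pos_of_interior hL hLi
    exact ⟨Rn_prod hK hKc hL hLc v1 v2, fun p1 p2 => closure_le hK hKc hL hLc v1 v2 p1 p2⟩
  · intro ι i P h
    exact ⟨h.two_pow_le, fun h3 => h.strict h3, fun K hK hKc hsub => Rn_ge_of_lowProd h hK hKc hsub⟩
  · intro ι _ P K hP hPc hPi hK hKc hsub
    exact Rn_ge_of_subset hP hPc hK hKc hsub (vol_pos_of_interior hP hPi)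
  · intro C a b K hC hc hi hab hK hKc hsub hv
    exact near_cylinder hC hc hi hab hK hKc hsub hv

end Vale.Agent.Results.P237.AAAllResults
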