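import Vale.Agent.Lib.P237.Low
import Vale.Agent.Lib.P237.Shadow

/-!
# P237: Petty's inequality is inherited by Cartesian products, in every dimension

(0) Check of the definition of the support function of `Π K` used here,
`hProj K u = |K + [0,u]| - |K|`: it is equivariant under linear maps (so invariant under rotations)
and in the vertical direction of `ℝ^n × ℝ` it is `|w|` times the `n`-dimensional volume of the
orthogonal projection of `K` to `ℝ^n`.
(1) `R_{n+m}(K × L) = R_n(K) R_m(L)` for all convex bodies.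
(2) If `K ⊆ ℝ^n` and `L ⊆ ℝ^m` satisfy Petty's inequality `R ≥ κ_{d-1}^d κ_d^{2-d}` in their
dimensions, then `K × L` satisfies it in dimension `n + m`, strictly if `n + m ≥ 3`.
(3) Hence every iterated Cartesian product of intervals and planar convex bodies, of dimension at
least three, satisfies Petty's inequality strictly.
-/

namespace Vale.Agent.Results.P237.AAClosedUnderProducts

open MeasureTheory _root_.P237

theorem result :
    ((∀ (ι : Type) [Fintype ι] (A : (ι → ℝ) →ₗ[ℝ] (ι → ℝ)) (K : Set (ι → ℝ)) (u : ι → ℝ),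
        hProj (A '' K) (A u) = |LinearMap.det A| * hProj K u) ∧
     (∀ (ι : Type) [Fintype ι] (K : Set (ι ⊕ Fin 1 → ℝ)) (w : Fin 1 → ℝ),
        IsCompact K → Convex ℝ K → hProj K (Sum.elim 0 w) = |w 0| * vol (shadow K))) ∧
    (∀ (ι κ : Type) [Fintype ι] [Fintype κ] [Nonempty ι] [Nonempty κ]
      (K : Set (ι → ℝ)) (L : Set (κ → ℝ)),
      IsCompact K → Convex ℝ K → (interior K).Nonempty →
      IsCompact L → Convex ℝ L → (interior L).Nonempty →
        Rn (prod K L) = Rn K * Rn L ∧
        (petOf kapB (Fintype.card ι) ≤ Rn K → petOf kapB (Fintype.card κ) ≤ Rn L →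
          petOf kapB (Fintype.card (ι ⊕ κ)) ≤ Rn (prod K L) ∧
          (3 ≤ Fintype.card (ι ⊕ κ) → petOf kapB (Fintype.card (ι ⊕ κ)) < Rn (prod K L)))) ∧
    (∀ (ι : Type) [i : Fintype ι] (K : Set (ι → ℝ)), LowProd ι i K → 3 ≤ Fintype.card ι →
        petOf kapB (Fintype.card ι) < Rn K) := by
  refine ⟨⟨?_, ?_⟩, ?_, ?_⟩
  · intro ι _ A K u
    exact hProj_image A K u
  · intro ι _ K w hK hc
    exact hProj_vertical hK hc w
  · intro ι κ _ _ _ _ K L hK hKc hKi hL hLc hLi
    have v1 := vol_pos_of_interior hK hKi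
    have v2 := vol_pos_of_interior hL hLi
    exact ⟨Rn_prod hK hKc hL hLc v1 v2, fun p1 p2 => closure_le hK hKc hL hLc v1 v2 p1 p2⟩
  · intro ι i K h h3
    exact h.strict h3

end Vale.Agent.Results.P237.AAClosedUnderProducts
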